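import Vale.Agent.P129BS.Sets
import Vale.Agent.P129B.Choice

/-!
# Classes of a model: transitive sets, induction and recursion on membership, collection
-/

set_option linter.all false

namespace Vale.Agent.P129B

universe v

variable {N : Type v} [ZM N]
variable {α β : Type*} [Coded N α] [Coded N β]

/-- the members of `A` with the property `Q` -/
noncomputable def sepN (A : N) (Q : N → Prop) : N := setOfN fun z => z ∈ A ∧ Q z

theorem mem_sepN {A z : N} {Q : N → Prop} (h : DefF N Q) : z ∈ sepN A Q ↔ z ∈ A ∧ Q z :=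
  mem_setOfN (h.sep A)

@[fun_prop] theorem DefF.sepN {A : α → N} {Q : α → N → Prop} (hA : DefF N A)
    (hQ : DefF N (fun p : α × N => Q p.1 p.2)) : DefF N (fun a => sepN (A a) (Q a)) := by
  refine defF_of_rel (R := fun a (B : N) => ∀ z : N, z ∈ B ↔ z ∈ A a ∧ Q a z)
    (fun _ _ => inferInstance) (by fun_prop) fun a B ha _ => ?_
  have h : DefF N (Q a) := hQ.comp2 (DefF.const a) DefF.id
  exact ⟨fun e => ext fun z => (mem_sepN h).trans (e z).symm, fun e z => e ▸ mem_sepN h⟩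

/-- Replacement for definable functions. -/
theorem exists_img {f : N → N} (hf : DefF N f) (A : N) :
    ∃ B : N, ∀ z, z ∈ B ↔ ∃ y, y ∈ A ∧ z = f y := by
  obtain ⟨B, hB⟩ := hf.2.repl A fun x _ => ⟨f x, ⟨x, inferInstance, rfl, rfl⟩, by
    rintro _ ⟨_, -, rfl, rfl⟩; rfl⟩
  refine ⟨B, fun z => (hB z).trans (exists_congr fun y => and_congr_right fun _ => ⟨?_, ?_⟩)⟩
  · rintro ⟨_, -, rfl, rfl⟩; rfl
  · rintro rfl; exact ⟨y, inferInstance, rfl, rfl⟩

/-- the image of a set -/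
noncomputable def imgN (A : N) (f : N → N) : N := setOfN fun z => ∃ y, y ∈ A ∧ z = f y

theorem mem_imgN {A z : N} {f : N → N} (h : DefF N f) : z ∈ imgN A f ↔ ∃ y, y ∈ A ∧ z = f y :=
  mem_setOfN (exists_img h A)

@[fun_prop] theorem DefF.imgN {A : α → N} {f : α → N → N} (hA : DefF N A)
    (hf : DefF N (fun p : α × N => f p.1 p.2)) : DefF N (fun a => imgN (A a) (f a)) := by
  refine defF_of_rel (R := fun a (B : N) => ∀ z : N, z ∈ B ↔ ∃ y, y ∈ A a ∧ z = f a y)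
    (fun _ _ => inferInstance) (by fun_prop) fun a B ha _ => ?_
  have h : DefF N (f a) := hf.comp2 (DefF.const a) DefF.id
  exact ⟨fun e => ext fun z => (mem_imgN h).trans (e z).symm, fun e z => e ▸ mem_imgN h⟩

/-- A definable relation with at most one value is the graph of a definable function. -/
theorem exists_defF_fn {R : α → N → Prop} (hR : DefF N (fun p : α × N => R p.1 p.2))
    (hu : ∀ a b c, R a b → R a c → b = c) : ∃ f : α → N, DefF N f ∧ ∀ a b, R a b → f a = b := by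
  classical
  refine ⟨fun a => if h : ∃ b, R a b then h.choose else emp N, defF_of_rel
    (R := fun a b => R a b ∨ ((¬ ∃ c, R a c) ∧ b = emp N)) (fun _ _ => inferInstance)
    (by fun_prop) fun a b _ _ => ?_, fun a b h => ?_⟩
  · by_cases h : ∃ b, R a b
    · rw [dif_pos h]
      exact ⟨fun e => e.elim (hu _ _ _ h.choose_spec) fun e => absurd h e.1,
        fun e => Or.inl (e ▸ h.choose_spec)⟩
    · rw [dif_neg h]
      exact ⟨fun e => e.elim (fun e => absurd ⟨b, e⟩ h) fun e => e.2.symm, fun e => Or.inr ⟨h, e.symm⟩⟩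
  · have : ∃ b, R a b := ⟨b, h⟩
    exact (dif_pos this).trans (hu _ _ _ this.choose_spec h)

theorem mem_op_left {x y S : N} (h : op x y ∈ S) : x ∈ sUnion (sUnion S) :=
  mem_sUnion.2 ⟨_, mem_sUnion.2 ⟨_, h, mem_upair.2 (Or.inr rfl)⟩, mem_upair.2 (Or.inl rfl)⟩

theorem mem_op_right {x y S : N} (h : op x y ∈ S) : y ∈ sUnion (sUnion S) :=
  mem_sUnion.2 ⟨_, mem_sUnion.2 ⟨_, h, mem_upair.2 (Or.inr rfl)⟩, mem_upair.2 (Or.inr rfl)⟩

/-- Recursion on membership, from the set of the values. -/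
theorem mem_rec₂ {F : N → N → N} (hF : DefF N (fun p : N × N => F p.1 p.2)) :
    ∃ H : N → N, DefF N H ∧ ∀ x, H x = F x (imgN x H) := by
  obtain ⟨H, a, b⟩ := mem_rec' F hF
  refine ⟨H, a, fun x => ?_⟩
  obtain ⟨S, c, d⟩ := b x
  rw [d, show S = imgN x H from ext fun z => (c z).trans (mem_imgN a).symm]

/-- The cumulative levels. -/
theorem exists_level : ∃ V : N → N, DefF N V ∧ (∀ x z : N, z ∈ x → z ∈ V x) ∧
    ∀ x y, (∀ z, z ∈ V x → z ∈ V y) ∨ V y ∈ V x := by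
  obtain ⟨V, hV, e⟩ := mem_rec₂ (F := fun _ S : N => sUnion (imgN S pow)) (by fun_prop)
  have hp : DefF N (pow : N → N) := by fun_prop
  have m : ∀ x z, z ∈ V x ↔ ∃ y, y ∈ x ∧ ∀ w, w ∈ z → w ∈ V y := fun x z => by
    rw [e x, mem_sUnion]
    constructor
    · rintro ⟨_, a, b⟩
      obtain ⟨_, c, rfl⟩ := (mem_imgN hp).1 a
      obtain ⟨y, d, rfl⟩ := (mem_imgN hV).1 c
      exact ⟨y, d, mem_pow.1 b⟩
    · rintro ⟨y, a, b⟩
      exact ⟨_, (mem_imgN hp).2 ⟨_, (mem_imgN hV).2 ⟨y, a, rfl⟩, rfl⟩, mem_pow.2 b⟩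
  have k : ∀ x y, (∀ u, u ∈ x → (∀ z, z ∈ V y → z ∈ V u) ∨ V u ∈ V y) →
      (∀ z, z ∈ V x → z ∈ V y) ∨ V y ∈ V x := fun x y h => by
    refine or_iff_not_imp_right.2 fun c z hz => ?_
    obtain ⟨u, a, b⟩ := (m _ _).1 hz
    obtain ⟨w, d, f⟩ := (m _ _).1 ((h u a).resolve_left fun d => c ((m _ _).2 ⟨u, a, d⟩))
    exact (m _ _).2 ⟨w, d, fun t ht => f t (b t ht)⟩
  exact ⟨V, hV, mem_ind (Q := fun x => ∀ z, z ∈ x → z ∈ V x) (by fun_prop)
    fun x ih z hz => (m _ _).2 ⟨z, hz, ih z hz⟩,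
    mem_ind (Q := fun x => ∀ y, (∀ z, z ∈ V x → z ∈ V y) ∨ V y ∈ V x) (by fun_prop)
    fun x ih y => k x y fun u hu => k y u fun w _ => ih u hu w⟩

/-- A definable bound for the witnesses of a definable relation. -/
theorem exists_defF_bound {R : α → N → Prop} (hR : DefF N (fun p : α × N => R p.1 p.2)) :
    ∃ B : α → N, DefF N B ∧ ∀ a, Intl N a → (∃ b, R a b) → ∃ b, b ∈ B a ∧ R a b := by
  obtain ⟨V, hV, v1, v2⟩ := exists_level (N := N)
  let C : α → N → Prop := fun a L => (∃ x, L = V x) ∧ ∃ b, R a b ∧ ∀ z : N, z ∈ b → z ∈ L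
  have hC : DefF N (fun p : α × N => C p.1 p.2) := by simp only [C]; fun_prop
  obtain ⟨f, hf, e⟩ := exists_defF_fn (R := fun a L => C a L ∧ ∀ z, z ∈ L → ¬ C a z)
    (by fun_prop) (by
      rintro a _ _ ⟨⟨⟨x, rfl⟩, c⟩, d⟩ ⟨⟨⟨y, rfl⟩, c'⟩, d'⟩
      exact ext fun z => ⟨(v2 x y).resolve_right (fun h => d _ h ⟨⟨y, rfl⟩, c'⟩) z,
        (v2 y x).resolve_right (fun h => d' _ h ⟨⟨x, rfl⟩, c⟩) z⟩)
  refine ⟨fun a => pow (f a), by fun_prop, fun a ha ⟨b, hb⟩ => ?_⟩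
  obtain ⟨L, h⟩ := exists_mem_min (Q := C a) (hC.comp2 (DefF.const a) DefF.id)
    ⟨⟨b, rfl⟩, b, hb, v1 b⟩
  obtain ⟨c, d, g⟩ := h.1.2
  exact ⟨c, mem_pow.2 (e a L h ▸ g), d⟩

/-- Collection. -/
theorem collect (R : N → N → Prop) (hR : DefF N (fun p : N × N => R p.1 p.2)) (A : N)
    (h : ∀ a, a ∈ A → ∃ b, R a b) : ∃ B : N, ∀ a, a ∈ A → ∃ b, b ∈ B ∧ R a b := by
  obtain ⟨B, hB, e⟩ := exists_defF_bound hR
  refine ⟨sUnion (imgN A B), fun a ha => ?_⟩
  obtain ⟨b, c, d⟩ := e a inferInstance (h a ha)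
  exact ⟨b, mem_sUnion.2 ⟨_, (mem_imgN hB).2 ⟨a, ha, rfl⟩, c⟩, d⟩

/-- Collection for coded types, where only some elements need to have a witness. -/
theorem collect_intl {R : α → β → Prop} (hR : DefF N (fun p : α × β => R p.1 p.2)) (s : Set α)
    [hs : Intl N s] : ∃ t : Set β, Intl N t ∧
      ∀ a ∈ s, (∃ b, Intl N b ∧ R a b) → ∃ b ∈ t, R a b := by
  obtain ⟨B, hB, e⟩ := exists_defF_bound
    (R := fun (a : α) (y : N) => ∃ b : β, Intl N b ∧ code N b = y ∧ R a b) (by fun_prop)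
  have h1 := intl_image hB s
  obtain ⟨t, ht, e'⟩ := exists_set_of_sub (α := β) (A := sepN (sUnion (code N (B '' s))) (Dom N β))
    fun x hx => ((mem_sepN (by fun_prop)).1 hx).2
  refine ⟨t, ht, fun a ha ⟨b, c, d⟩ => ?_⟩
  obtain ⟨_, f, b, c, rfl, d⟩ := e a (hs.of_mem ha) ⟨_, b, c, rfl, d⟩
  refine ⟨b, (code_mem_code ht c).1 (e' ▸ (mem_sepN (by fun_prop)).2 ⟨mem_sUnion.2
    ⟨B a, (mem_code_set h1).2 ⟨_, ⟨a, ha, rfl⟩, rfl⟩, f⟩, b, c, rfl⟩), d⟩

end Vale.Agent.P129B
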